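/-
helper13: shared definitions for the S0170 team build (1-D effectiveness, rational-arithmetic
computability bundle, tensor fields).  Definitions only; the closure lemmas and the tensor lemma
live in `Crest/Agent/Helper13/BoxEff*.lean`.
-/
import Mathlib
import Crest.Prelude.Def_BoxFlow

set_option autoImplicit false
open scoped ContDiff

namespace Crest.Agent.Helper13

open Crest.AnalysisR.BoxFlow

/-- One-dimensional effectiveness: `f` is smooth, a computable function approximates every
iterated derivative of `f` at every rational point to any precision `1/(n+1)`, and a computable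
function bounds every iterated derivative globally. -/
def Eff1 (f : ℝ → ℝ) : Prop :=
  ContDiff ℝ ∞ f ∧ ∃ (E : ℕ × ℚ × ℕ → ℚ) (b : ℕ → ℕ), Computable E ∧ Computable b ∧
    (∀ (k : ℕ) (q : ℚ) (n : ℕ),
      |iteratedDeriv k f (q : ℝ) - (E (k, q, n) : ℝ)| ≤ 1 / ((n : ℝ) + 1)) ∧
    (∀ (k : ℕ) (x : ℝ), |iteratedDeriv k f x| ≤ (b k : ℝ))

/-- The facts about computable rational arithmetic (with respect to Mathlib's `Primcodable ℚ`)
that the closure lemmas use. -/
structure QComp : Prop where
  add : Computable₂ (fun a b : ℚ => a + b)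
  mul : Computable₂ (fun a b : ℚ => a * b)
  natCast : Computable (fun n : ℕ => (n : ℚ))
  ubound : ∃ u : ℚ → ℕ, Computable u ∧ ∀ q : ℚ, |q| ≤ (u q : ℚ)

/-- The tensor field `(t, x) ↦ g t * A (x 0) * B (x 1) * C (x 2)` in the coordinate direction `j`. -/
noncomputable def tensor (g A B C : ℝ → ℝ) (j : Fin 3) : Field :=
  fun p => (g p.1 * A (p.2 0) * B (p.2 1) * C (p.2 2)) • (Pi.single j (1 : ℝ) : Fin 3 → ℝ)

/-- Smooth and effective fields. -/
def EffS (U : Field) : Prop := ContDiff ℝ ∞ U ∧ Effective U

end Crest.Agent.Helper13
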