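/-
helper13: S0170 team build, analysis half of the tensor lemma: smoothness of tensor fields,
their directional derivatives, mixed derivatives, divergence and compact support.
-/
import Mathlib
import Crest.Prelude.Def_BoxFlow
import Crest.Agent.Helper13.BoxEffDefs

set_option autoImplicit false
open scoped ContDiff

namespace Crest.Agent.Helper13

open Crest.AnalysisR.BoxFlow

theorem direction_zero : direction 0 = ((1 : ℝ), (0 : Fin 3 → ℝ)) := by
  simp [direction]

theorem direction_one : direction 1 = ((0 : ℝ), (Pi.single 0 1 : Fin 3 → ℝ)) := by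
  simp [direction]

theorem direction_two : direction 2 = ((0 : ℝ), (Pi.single 1 1 : Fin 3 → ℝ)) := by
  simp [direction]

theorem direction_three : direction 3 = ((0 : ℝ), (Pi.single 2 1 : Fin 3 → ℝ)) := by
  simp [direction]

theorem tensor_apply (g A B C : ℝ → ℝ) (j : Fin 3) (p : ℝ × (Fin 3 → ℝ)) :
    tensor g A B C j p
      = (g p.1 * A (p.2 0) * B (p.2 1) * C (p.2 2)) • (Pi.single j (1 : ℝ) : Fin 3 → ℝ) := rfl

theorem tensor_contDiff {g A B C : ℝ → ℝ} (hg : ContDiff ℝ ∞ g) (hA : ContDiff ℝ ∞ A)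
    (hB : ContDiff ℝ ∞ B) (hC : ContDiff ℝ ∞ C) (j : Fin 3) :
    ContDiff ℝ ∞ (tensor g A B C j) := by
  unfold tensor
  have h0 : ContDiff ℝ ∞ (fun p : ℝ × (Fin 3 → ℝ) => g p.1) := hg.comp contDiff_fst
  have h1 : ContDiff ℝ ∞ (fun p : ℝ × (Fin 3 → ℝ) => A (p.2 0)) :=
    hA.comp ((contDiff_apply ℝ ℝ (0 : Fin 3)).comp contDiff_snd)
  have h2 : ContDiff ℝ ∞ (fun p : ℝ × (Fin 3 → ℝ) => B (p.2 1)) :=
    hB.comp ((contDiff_apply ℝ ℝ (1 : Fin 3)).comp contDiff_snd)
  have h3 : ContDiff ℝ ∞ (fun p : ℝ × (Fin 3 → ℝ) => C (p.2 2)) :=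
    hC.comp ((contDiff_apply ℝ ℝ (2 : Fin 3)).comp contDiff_snd)
  exact (((h0.mul h1).mul h2).mul h3).smul
    (contDiff_const (c := (Pi.single j (1 : ℝ) : Fin 3 → ℝ)))

/-- the factor `f` differentiated once if the direction `d` is the slot `i`. -/
noncomputable def dfac (d i : Fin 4) (f : ℝ → ℝ) : ℝ → ℝ := if d = i then deriv f else f

theorem fderiv_tensor_direction {g A B C : ℝ → ℝ} (hg : ContDiff ℝ ∞ g) (hA : ContDiff ℝ ∞ A)
    (hB : ContDiff ℝ ∞ B) (hC : ContDiff ℝ ∞ C) (j : Fin 3) (p : ℝ × (Fin 3 → ℝ)) (d : Fin 4) :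
    fderiv ℝ (tensor g A B C j) p (direction d)
      = tensor (dfac d 0 g) (dfac d 1 A) (dfac d 2 B) (dfac d 3 C) j p := by
  have hT : DifferentiableAt ℝ (tensor g A B C j) p :=
    ((tensor_contDiff hg hA hB hC j).differentiable (by simp)) p
  have h1 := (hT.hasFDerivAt).hasLineDerivAt (direction d)
  have dg : Differentiable ℝ g := hg.differentiable (by simp)
  have dA : Differentiable ℝ A := hA.differentiable (by simp)
  have dB : Differentiable ℝ B := hB.differentiable (by simp)
  have dC : Differentiable ℝ C := hC.differentiable (by simp)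
  refine h1.unique ?_
  fin_cases d
  · -- time direction
    have key : (fun s : ℝ => tensor g A B C j (p + s • direction 0))
        = fun s => (g (p.1 + s) * A (p.2 0) * B (p.2 1) * C (p.2 2)) • (Pi.single j (1 : ℝ) : Fin 3 → ℝ) := by
      funext s; simp [tensor, direction_zero]
    have hd : HasDerivAt (fun s : ℝ => g (p.1 + s)) (deriv g p.1) 0 := by
      apply HasDerivAt.comp_const_add
      simpa using (dg p.1).hasDerivAt
    have := (((hd.mul_const (A (p.2 0))).mul_const (B (p.2 1))).mul_const (C (p.2 2))).smul_const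
      (Pi.single j (1 : ℝ) : Fin 3 → ℝ)
    show HasDerivAt (fun s : ℝ => tensor g A B C j (p + s • direction 0)) _ 0
    rw [key]
    simpa [tensor, dfac] using this
  · have key : (fun s : ℝ => tensor g A B C j (p + s • direction 1))
        = fun s => (g p.1 * A (p.2 0 + s) * B (p.2 1) * C (p.2 2)) • (Pi.single j (1 : ℝ) : Fin 3 → ℝ) := by
      funext s; simp [tensor, direction_one]
    have hd : HasDerivAt (fun s : ℝ => A (p.2 0 + s)) (deriv A (p.2 0)) 0 := by
      apply HasDerivAt.comp_const_add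
      simpa using (dA (p.2 0)).hasDerivAt
    have := ((((hd.const_mul (g p.1))).mul_const (B (p.2 1))).mul_const (C (p.2 2))).smul_const
      (Pi.single j (1 : ℝ) : Fin 3 → ℝ)
    show HasDerivAt (fun s : ℝ => tensor g A B C j (p + s • direction 1)) _ 0
    rw [key]
    simpa [tensor, dfac] using this
  · have key : (fun s : ℝ => tensor g A B C j (p + s • direction 2))
        = fun s => (g p.1 * A (p.2 0) * B (p.2 1 + s) * C (p.2 2)) • (Pi.single j (1 : ℝ) : Fin 3 → ℝ) := by
      funext s; simp [tensor, direction_two]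
    have hd : HasDerivAt (fun s : ℝ => B (p.2 1 + s)) (deriv B (p.2 1)) 0 := by
      apply HasDerivAt.comp_const_add
      simpa using (dB (p.2 1)).hasDerivAt
    have := (((hd.const_mul (g p.1 * A (p.2 0)))).mul_const (C (p.2 2))).smul_const
      (Pi.single j (1 : ℝ) : Fin 3 → ℝ)
    show HasDerivAt (fun s : ℝ => tensor g A B C j (p + s • direction 2)) _ 0
    rw [key]
    simpa [tensor, dfac] using this
  · have key : (fun s : ℝ => tensor g A B C j (p + s • direction 3))
        = fun s => (g p.1 * A (p.2 0) * B (p.2 1) * C (p.2 2 + s)) • (Pi.single j (1 : ℝ) : Fin 3 → ℝ) := by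
      funext s; simp [tensor, direction_three]
    have hd : HasDerivAt (fun s : ℝ => C (p.2 2 + s)) (deriv C (p.2 2)) 0 := by
      apply HasDerivAt.comp_const_add
      simpa using (dC (p.2 2)).hasDerivAt
    have := ((hd.const_mul (g p.1 * A (p.2 0) * B (p.2 1)))).smul_const
      (Pi.single j (1 : ℝ) : Fin 3 → ℝ)
    show HasDerivAt (fun s : ℝ => tensor g A B C j (p + s • direction 3)) _ 0
    rw [key]
    simpa [tensor, dfac] using this

theorem contDiff_iteratedDeriv_top {f : ℝ → ℝ} (hf : ContDiff ℝ ∞ f) (k : ℕ) :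
    ContDiff ℝ ∞ (iteratedDeriv k f) := by
  rw [iteratedDeriv_eq_iterate]; exact hf.iterate_deriv k

theorem iteratedDeriv_count_cons (d i : Fin 4) (ds : List (Fin 4)) (f : ℝ → ℝ) :
    iteratedDeriv ((d :: ds).count i) f = dfac d i (iteratedDeriv (ds.count i) f) := by
  unfold dfac
  by_cases h : d = i
  · subst h; simp [iteratedDeriv_succ]
  · simp [h]

/-- **Mixed derivatives of a tensor field**: differentiate each factor as often as its direction
occurs in the list. -/
theorem mixedDeriv_tensor {g A B C : ℝ → ℝ} (hg : ContDiff ℝ ∞ g) (hA : ContDiff ℝ ∞ A)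
    (hB : ContDiff ℝ ∞ B) (hC : ContDiff ℝ ∞ C) (j : Fin 3) (ds : List (Fin 4)) :
    mixedDeriv ds (tensor g A B C j)
      = tensor (iteratedDeriv (ds.count 0) g) (iteratedDeriv (ds.count 1) A)
          (iteratedDeriv (ds.count 2) B) (iteratedDeriv (ds.count 3) C) j := by
  induction ds with
  | nil => simp [mixedDeriv, iteratedDeriv_zero]
  | cons d ds ih =>
    funext p
    show fderiv ℝ (mixedDeriv ds (tensor g A B C j)) p (direction d) = _
    rw [ih, fderiv_tensor_direction (contDiff_iteratedDeriv_top hg _)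
      (contDiff_iteratedDeriv_top hA _) (contDiff_iteratedDeriv_top hB _)
      (contDiff_iteratedDeriv_top hC _) j p d]
    simp only [iteratedDeriv_count_cons]

theorem contDiff_mixedDeriv {U : Field} (hU : ContDiff ℝ ∞ U) (ds : List (Fin 4)) :
    ContDiff ℝ ∞ (mixedDeriv ds U) := by
  induction ds with
  | nil => exact hU
  | cons d ds ih =>
    show ContDiff ℝ ∞ (fun p => fderiv ℝ (mixedDeriv ds U) p (direction d))
    exact (ih.fderiv_right (m := ∞) (by simp)).clm_apply contDiff_const

theorem mixedDeriv_add {U V : Field} (hU : ContDiff ℝ ∞ U) (hV : ContDiff ℝ ∞ V)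
    (ds : List (Fin 4)) :
    mixedDeriv ds (fun p => U p + V p) = fun p => mixedDeriv ds U p + mixedDeriv ds V p := by
  induction ds with
  | nil => rfl
  | cons d ds ih =>
    funext p
    show fderiv ℝ (mixedDeriv ds (fun p => U p + V p)) p (direction d)
      = fderiv ℝ (mixedDeriv ds U) p (direction d) + fderiv ℝ (mixedDeriv ds V) p (direction d)
    rw [ih]
    have h1 : DifferentiableAt ℝ (mixedDeriv ds U) p :=
      ((contDiff_mixedDeriv hU ds).differentiable (by simp)) p
    have h2 : DifferentiableAt ℝ (mixedDeriv ds V) p :=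
      ((contDiff_mixedDeriv hV ds).differentiable (by simp)) p
    rw [fderiv_fun_add h1 h2]
    rfl

theorem mixedDeriv_zero (ds : List (Fin 4)) :
    mixedDeriv ds (fun _ => (0 : Fin 3 → ℝ)) = fun _ => 0 := by
  induction ds with
  | nil => rfl
  | cons d ds ih =>
    funext p
    show fderiv ℝ (mixedDeriv ds (fun _ => (0 : Fin 3 → ℝ))) p (direction d) = 0
    rw [ih]
    simp

theorem spaceDiv_add {U V : Field} (p : ℝ × (Fin 3 → ℝ)) (hU : DifferentiableAt ℝ U p)
    (hV : DifferentiableAt ℝ V p) :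
    spaceDiv (fun p => U p + V p) p = spaceDiv U p + spaceDiv V p := by
  unfold spaceDiv
  rw [fderiv_fun_add hU hV, ← Finset.sum_add_distrib]
  rfl

theorem spaceDiv_zero (p : ℝ × (Fin 3 → ℝ)) : spaceDiv (fun _ => (0 : Fin 3 → ℝ)) p = 0 := by
  unfold spaceDiv
  simp

theorem spaceDiv_tensor_zero {g A B C : ℝ → ℝ} (hg : ContDiff ℝ ∞ g) (hA : ContDiff ℝ ∞ A)
    (hB : ContDiff ℝ ∞ B) (hC : ContDiff ℝ ∞ C) (p : ℝ × (Fin 3 → ℝ)) :
    spaceDiv (tensor g A B C 0) p = g p.1 * deriv A (p.2 0) * B (p.2 1) * C (p.2 2) := by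
  unfold spaceDiv
  rw [Fin.sum_univ_three, ← direction_one, ← direction_two, ← direction_three,
    fderiv_tensor_direction hg hA hB hC, fderiv_tensor_direction hg hA hB hC,
    fderiv_tensor_direction hg hA hB hC]
  simp [tensor, dfac]

theorem spaceDiv_tensor_one {g A B C : ℝ → ℝ} (hg : ContDiff ℝ ∞ g) (hA : ContDiff ℝ ∞ A)
    (hB : ContDiff ℝ ∞ B) (hC : ContDiff ℝ ∞ C) (p : ℝ × (Fin 3 → ℝ)) :
    spaceDiv (tensor g A B C 1) p = g p.1 * A (p.2 0) * deriv B (p.2 1) * C (p.2 2) := by
  unfold spaceDiv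
  rw [Fin.sum_univ_three, ← direction_one, ← direction_two, ← direction_three,
    fderiv_tensor_direction hg hA hB hC, fderiv_tensor_direction hg hA hB hC,
    fderiv_tensor_direction hg hA hB hC]
  simp [tensor, dfac]

theorem spaceDiv_tensor_two {g A B C : ℝ → ℝ} (hg : ContDiff ℝ ∞ g) (hA : ContDiff ℝ ∞ A)
    (hB : ContDiff ℝ ∞ B) (hC : ContDiff ℝ ∞ C) (p : ℝ × (Fin 3 → ℝ)) :
    spaceDiv (tensor g A B C 2) p = g p.1 * A (p.2 0) * B (p.2 1) * deriv C (p.2 2) := by
  unfold spaceDiv
  rw [Fin.sum_univ_three, ← direction_one, ← direction_two, ← direction_three,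
    fderiv_tensor_direction hg hA hB hC, fderiv_tensor_direction hg hA hB hC,
    fderiv_tensor_direction hg hA hB hC]
  simp [tensor, dfac]

theorem tensor_time_zero {g : ℝ → ℝ} (A B C : ℝ → ℝ) (j : Fin 3) {t : ℝ} (ht : g t = 0)
    (x : Fin 3 → ℝ) : tensor g A B C j (t, x) = 0 := by
  simp [tensor, ht]

theorem hasCompactSupport_tensor {g A B C : ℝ → ℝ} (hg : HasCompactSupport g)
    (hA : HasCompactSupport A) (hB : HasCompactSupport B) (hC : HasCompactSupport C) (j : Fin 3) :
    HasCompactSupport (tensor g A B C j) := by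
  have hS : ∀ i : Fin 3, IsCompact ((![tsupport A, tsupport B, tsupport C] : Fin 3 → Set ℝ) i) := by
    intro i
    fin_cases i
    · exact hA.isCompact
    · exact hB.isCompact
    · exact hC.isCompact
  refine HasCompactSupport.intro (hg.isCompact.prod (isCompact_univ_pi hS)) ?_
  intro p hp
  rw [tensor_apply]
  by_contra h
  apply hp
  have h' : g p.1 * A (p.2 0) * B (p.2 1) * C (p.2 2) ≠ 0 := fun h0 => h (by rw [h0, zero_smul])
  have hg0 : g p.1 ≠ 0 := fun h0 => h' (by rw [h0]; ring)
  have hA0 : A (p.2 0) ≠ 0 := fun h0 => h' (by rw [h0]; ring)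
  have hB0 : B (p.2 1) ≠ 0 := fun h0 => h' (by rw [h0]; ring)
  have hC0 : C (p.2 2) ≠ 0 := fun h0 => h' (by rw [h0]; ring)
  refine ⟨subset_tsupport _ (Function.mem_support.mpr hg0), ?_⟩
  intro i _
  fin_cases i
  · exact subset_tsupport _ (Function.mem_support.mpr hA0)
  · exact subset_tsupport _ (Function.mem_support.mpr hB0)
  · exact subset_tsupport _ (Function.mem_support.mpr hC0)

end Crest.Agent.Helper13
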