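/-
helper13: S0170 team build, computability toolkit and closure lemmas for `Eff1`.
-/
import Mathlib
import Crest.Prelude.Def_BoxFlow
import Crest.Agent.Helper13.BoxEffA

set_option autoImplicit false
open scoped ContDiff

namespace Crest.Agent.Helper13

open Crest.AnalysisR.BoxFlow

section toolkit

variable {α : Type*} [Primcodable α]

theorem computable_nat_pow : Computable₂ (fun a b : ℕ => a ^ b) :=
  (Primrec₂.unpaired'.1 Nat.Primrec.pow).to_comp

theorem computable_fin_lam {n : ℕ} {σ : Type*} [Primcodable σ] {f : α → Fin n → σ}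
    (hf : ∀ i, Computable (fun a => f a i)) : Computable f :=
  ((Primrec.vector_get'.to_comp).comp
    (Computable.vector_ofFn (f := fun i a => f a i) hf)).of_eq (fun a => by funext i; simp)

theorem primrec_count (d : Fin 4) : Primrec (fun l : List (Fin 4) => l.count d) := by
  have hp : PrimrecPred (fun a : Fin 4 => a = d) :=
    Primrec.eq.comp Primrec.id (Primrec.const d)
  have := Primrec.list_length.comp (Primrec.listFilter hp)
  refine this.of_eq (fun l => ?_)
  rw [List.count_eq_length_filter]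
  congr 1

theorem computable_qpow (hQ : QComp) (c : ℚ) : Computable (fun k : ℕ => c ^ k) := by
  have h : Computable (fun k : ℕ => Nat.rec (motive := fun _ => ℚ) (1 : ℚ) (fun _ IH => c * IH) k) :=
    Computable.nat_rec (f := fun k : ℕ => k) (g := fun _ : ℕ => (1 : ℚ))
      (h := fun (_ : ℕ) (p : ℕ × ℚ) => c * p.2) Computable.id (Computable.const 1)
      (hQ.mul.comp (Computable.const c) (Computable.snd.comp Computable.snd))
  refine h.of_eq (fun k => ?_)
  induction k with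
  | zero => simp
  | succ k ih => simp only [ih]; rw [pow_succ]; ring

end toolkit

section closure

theorem Eff1.contDiff {f : ℝ → ℝ} (hf : Eff1 f) : ContDiff ℝ ∞ f := hf.1

theorem contDiffAt_of_top {f : ℝ → ℝ} (hf : ContDiff ℝ ∞ f) (k : ℕ) (x : ℝ) : ContDiffAt ℝ k f x :=
  hf.contDiffAt.of_le (by exact_mod_cast le_top)

theorem comp_k3 : Computable (fun x : ℕ × ℚ × ℕ => x.1) := Computable.fst
theorem comp_q3 : Computable (fun x : ℕ × ℚ × ℕ => x.2.1) := Computable.fst.comp Computable.snd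
theorem comp_n3 : Computable (fun x : ℕ × ℚ × ℕ => x.2.2) := Computable.snd.comp Computable.snd

/-- `1/(N+1) ≤ 1/(M*(n+1))`-type bound used for all precision bookkeeping. -/
theorem prec_bound {c : ℝ} {M n N : ℕ} (hc : |c| ≤ M) (hN : M * (n + 1) ≤ N) :
    |c| * (1 / ((N : ℝ) + 1)) ≤ 1 / ((n : ℝ) + 1) := by
  have hn : (0 : ℝ) < (n : ℝ) + 1 := by positivity
  have hN' : ((M : ℝ) * ((n : ℝ) + 1)) ≤ (N : ℝ) := by exact_mod_cast hN
  have hN1 : (0 : ℝ) < (N : ℝ) + 1 := by positivity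
  rw [mul_one_div, div_le_div_iff₀ hN1 hn]
  have h0 : (0 : ℝ) ≤ |c| := abs_nonneg c
  nlinarith

theorem Eff1.add (hQ : QComp) {f g : ℝ → ℝ} (hf : Eff1 f) (hg : Eff1 g) :
    Eff1 (fun x => f x + g x) := by
  obtain ⟨sf, Ef, bf, cEf, cbf, hEf, hbf⟩ := hf
  obtain ⟨sg, Eg, bg, cEg, cbg, hEg, hbg⟩ := hg
  have hder : ∀ (k : ℕ) (x : ℝ), iteratedDeriv k (fun x => f x + g x) x
      = iteratedDeriv k f x + iteratedDeriv k g x := fun k x =>
    iteratedDeriv_fun_add (contDiffAt_of_top sf k x) (contDiffAt_of_top sg k x)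
  have h2n : Computable (fun x : ℕ × ℚ × ℕ => 2 * x.2.2 + 1) :=
    (Primrec.nat_double_succ.to_comp).comp comp_n3
  refine ⟨sf.add sg, fun x => Ef (x.1, x.2.1, 2 * x.2.2 + 1) + Eg (x.1, x.2.1, 2 * x.2.2 + 1),
    fun k => bf k + bg k, ?_, ?_, ?_, ?_⟩
  · exact hQ.add.comp (cEf.comp (comp_k3.pair (comp_q3.pair h2n))) (cEg.comp (comp_k3.pair (comp_q3.pair h2n)))
  · exact (Primrec.nat_add.to_comp).comp cbf cbg
  · intro k q n
    rw [hder]
    have h1 := hEf k q (2 * n + 1)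
    have h2 := hEg k q (2 * n + 1)
    have e : (1 : ℝ) / (((2 * n + 1 : ℕ) : ℝ) + 1) = 1 / ((n : ℝ) + 1) / 2 := by
      push_cast; field_simp; ring
    rw [e] at h1 h2
    have h3 := abs_add_le (iteratedDeriv k f q - (Ef (k, q, 2 * n + 1) : ℝ))
      (iteratedDeriv k g q - (Eg (k, q, 2 * n + 1) : ℝ))
    have e2 : iteratedDeriv k f q + iteratedDeriv k g q
        - ((Ef (k, q, 2 * n + 1) + Eg (k, q, 2 * n + 1) : ℚ) : ℝ)
        = (iteratedDeriv k f q - (Ef (k, q, 2 * n + 1) : ℝ))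
          + (iteratedDeriv k g q - (Eg (k, q, 2 * n + 1) : ℝ)) := by push_cast; ring
    rw [e2]
    linarith
  · intro k x
    rw [hder]
    push_cast
    exact (abs_add_le _ _).trans (add_le_add (hbf k x) (hbg k x))

theorem Eff1.const_mul (hQ : QComp) (c : ℚ) {f : ℝ → ℝ} (hf : Eff1 f) :
    Eff1 (fun x => (c : ℝ) * f x) := by
  obtain ⟨sf, Ef, bf, cEf, cbf, hEf, hbf⟩ := hf
  obtain ⟨M, hM⟩ := exists_nat_ge |(c : ℝ)|
  have hder : ∀ (k : ℕ) (x : ℝ), iteratedDeriv k (fun x => (c : ℝ) * f x) x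
      = (c : ℝ) * iteratedDeriv k f x := fun k x =>
    iteratedDeriv_const_mul_field (c : ℝ) f
  have hN : Computable (fun x : ℕ × ℚ × ℕ => M * (x.2.2 + 1)) :=
    (Primrec.nat_mul.to_comp).comp (Computable.const M) (Computable.succ.comp comp_n3)
  refine ⟨contDiff_const.mul sf, fun x => c * Ef (x.1, x.2.1, M * (x.2.2 + 1)),
    fun k => M * bf k, ?_, ?_, ?_, ?_⟩
  · exact hQ.mul.comp (Computable.const c) (cEf.comp (comp_k3.pair (comp_q3.pair hN)))
  · exact (Primrec.nat_mul.to_comp).comp (Computable.const M) cbf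
  · intro k q n
    rw [hder]
    have h1 := hEf k q (M * (n + 1))
    have e2 : (c : ℝ) * iteratedDeriv k f q - ((c * Ef (k, q, M * (n + 1)) : ℚ) : ℝ)
        = (c : ℝ) * (iteratedDeriv k f q - (Ef (k, q, M * (n + 1)) : ℝ)) := by push_cast; ring
    rw [e2, abs_mul]
    calc |(c : ℝ)| * |iteratedDeriv k f q - (Ef (k, q, M * (n + 1)) : ℝ)|
        ≤ |(c : ℝ)| * (1 / (((M * (n + 1) : ℕ) : ℝ) + 1)) :=
          mul_le_mul_of_nonneg_left h1 (abs_nonneg _)
      _ ≤ 1 / ((n : ℝ) + 1) := prec_bound hM le_rfl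
  · intro k x
    rw [hder, abs_mul]
    push_cast
    exact mul_le_mul hM (hbf k x) (abs_nonneg _) (Nat.cast_nonneg M)

theorem Eff1.neg (hQ : QComp) {f : ℝ → ℝ} (hf : Eff1 f) : Eff1 (fun x => -f x) := by
  have := Eff1.const_mul hQ (-1) hf
  have e : (fun x => ((-1 : ℚ) : ℝ) * f x) = fun x => -f x := by funext x; push_cast; ring
  rwa [e] at this

theorem Eff1.sub (hQ : QComp) {f g : ℝ → ℝ} (hf : Eff1 f) (hg : Eff1 g) :
    Eff1 (fun x => f x - g x) := by
  have := Eff1.add hQ hf (Eff1.neg hQ hg)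
  have e : (fun x => f x + -g x) = fun x => f x - g x := by funext x; ring
  rwa [e] at this

theorem Eff1.deriv {f : ℝ → ℝ} (hf : Eff1 f) : Eff1 (deriv f) := by
  obtain ⟨sf, Ef, bf, cEf, cbf, hEf, hbf⟩ := hf
  refine ⟨(contDiff_infty_iff_deriv.1 sf).2, fun x => Ef (x.1 + 1, x.2.1, x.2.2),
    fun k => bf (k + 1), ?_, ?_, ?_, ?_⟩
  · exact cEf.comp ((Computable.succ.comp comp_k3).pair (comp_q3.pair comp_n3))
  · exact cbf.comp Computable.succ
  · intro k q n
    rw [← iteratedDeriv_succ']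
    exact hEf (k + 1) q n
  · intro k x
    rw [← iteratedDeriv_succ']
    exact hbf (k + 1) x

theorem iteratedDeriv_comp_affine {f : ℝ → ℝ} (sf : ContDiff ℝ ∞ f) (a b : ℝ) (k : ℕ) (x : ℝ) :
    iteratedDeriv k (fun x => f (a * x + b)) x = a ^ k * iteratedDeriv k f (a * x + b) := by
  have sh : ContDiff ℝ ∞ (fun z : ℝ => f (z + b)) := sf.comp (contDiff_id.add contDiff_const)
  have h1 := iteratedDeriv_comp_const_mul (n := k) (f := fun z => f (z + b))
    (sh.of_le (by exact_mod_cast le_top)) a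
  have h2 := iteratedDeriv_comp_add_const k f b
  have := congrFun h1 x
  simp only [h2] at this
  exact this

theorem Eff1.comp_affine (hQ : QComp) {f : ℝ → ℝ} (hf : Eff1 f) (α β : ℚ) :
    Eff1 (fun x => f ((α : ℝ) * x + (β : ℝ))) := by
  obtain ⟨sf, Ef, bf, cEf, cbf, hEf, hbf⟩ := hf
  obtain ⟨M, hM⟩ := exists_nat_ge |(α : ℝ)|
  have hder := fun (k : ℕ) (x : ℝ) => iteratedDeriv_comp_affine sf (α : ℝ) (β : ℝ) k x
  have hpowM : ∀ k : ℕ, |(α : ℝ) ^ k| ≤ ((M ^ k : ℕ) : ℝ) := by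
    intro k; rw [abs_pow]; push_cast; exact pow_le_pow_left₀ (abs_nonneg _) hM k
  have hN : Computable (fun x : ℕ × ℚ × ℕ => M ^ x.1 * (x.2.2 + 1)) :=
    (Primrec.nat_mul.to_comp).comp (computable_nat_pow.comp (Computable.const M) comp_k3)
      (Computable.succ.comp comp_n3)
  have hpt : Computable (fun x : ℕ × ℚ × ℕ => α * x.2.1 + β) :=
    hQ.add.comp (hQ.mul.comp (Computable.const α) comp_q3) (Computable.const β)
  refine ⟨sf.comp ((contDiff_const.mul contDiff_id).add contDiff_const),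
    fun x => α ^ x.1 * Ef (x.1, α * x.2.1 + β, M ^ x.1 * (x.2.2 + 1)),
    fun k => M ^ k * bf k, ?_, ?_, ?_, ?_⟩
  · exact hQ.mul.comp ((computable_qpow hQ α).comp comp_k3) (cEf.comp (comp_k3.pair (hpt.pair hN)))
  · exact (Primrec.nat_mul.to_comp).comp
      (computable_nat_pow.comp (Computable.const M) Computable.id) cbf
  · intro k q n
    rw [hder]
    have h1 := hEf k (α * q + β) (M ^ k * (n + 1))
    have e2 : (α : ℝ) ^ k * iteratedDeriv k f ((α : ℝ) * (q : ℝ) + (β : ℝ))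
          - ((α ^ k * Ef (k, α * q + β, M ^ k * (n + 1)) : ℚ) : ℝ)
        = (α : ℝ) ^ k * (iteratedDeriv k f (((α * q + β : ℚ)) : ℝ)
          - (Ef (k, α * q + β, M ^ k * (n + 1)) : ℝ)) := by push_cast; ring
    rw [e2, abs_mul]
    calc |(α : ℝ) ^ k| * |iteratedDeriv k f (((α * q + β : ℚ)) : ℝ)
          - (Ef (k, α * q + β, M ^ k * (n + 1)) : ℝ)|
        ≤ |(α : ℝ) ^ k| * (1 / (((M ^ k * (n + 1) : ℕ) : ℝ) + 1)) :=
          mul_le_mul_of_nonneg_left h1 (abs_nonneg _)
      _ ≤ 1 / ((n : ℝ) + 1) := prec_bound (hpowM k) le_rfl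
  · intro k x
    rw [hder, abs_mul]
    have := hpowM k
    push_cast at this ⊢
    exact mul_le_mul this (hbf k _) (abs_nonneg _) (by positivity)

theorem iteratedDeriv_id_mul {f : ℝ → ℝ} (sf : ContDiff ℝ ∞ f) (k : ℕ) (x : ℝ) :
    iteratedDeriv k (fun x => x * f x) x
      = x * iteratedDeriv k f x + k * iteratedDeriv (k - 1) f x := by
  induction k generalizing f x with
  | zero => simp
  | succ k ih =>
    have hd : deriv (fun x => x * f x) = fun x => f x + x * deriv f x := by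
      funext y
      have : HasDerivAt (fun x => x * f x) (1 * f y + y * deriv f y) y :=
        (hasDerivAt_id y).mul ((sf.differentiable (by simp) y).hasDerivAt)
      rw [this.deriv]; ring
    have sf' : ContDiff ℝ ∞ (deriv f) := (contDiff_infty_iff_deriv.1 sf).2
    have h1 : iteratedDeriv k (fun x => f x + x * deriv f x) x
        = iteratedDeriv k f x + iteratedDeriv k (fun x => x * deriv f x) x :=
      iteratedDeriv_fun_add (contDiffAt_of_top sf k x) (contDiffAt_of_top (contDiff_id.mul sf') k x)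
    rw [iteratedDeriv_succ', hd, h1, ih sf', ← iteratedDeriv_succ']
    cases k with
    | zero => simp; ring
    | succ m =>
      simp only [Nat.add_sub_cancel]
      rw [← iteratedDeriv_succ' (n := m)]
      push_cast; ring

theorem half_prec (n : ℕ) :
    (1 : ℝ) / (((2 * n + 1 : ℕ) : ℝ) + 1) = 1 / ((n : ℝ) + 1) / 2 := by
  push_cast; field_simp; ring

theorem Eff1.id_mul (hQ : QComp) {f : ℝ → ℝ} (hf : Eff1 f) (R : ℕ)
    (hR : ∀ x : ℝ, (R : ℝ) < |x| → f x = 0) : Eff1 (fun x => x * f x) := by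
  obtain ⟨sf, Ef, bf, cEf, cbf, hEf, hbf⟩ := hf
  obtain ⟨u, cu, hu⟩ := hQ.ubound
  have hder := fun (k : ℕ) (x : ℝ) => iteratedDeriv_id_mul sf k x
  have hvan : ∀ (k : ℕ) (x : ℝ), (R : ℝ) < |x| → iteratedDeriv k f x = 0 := by
    intro k x hx
    have hopen : IsOpen {y : ℝ | (R : ℝ) < |y|} := isOpen_lt continuous_const continuous_abs
    have heq : Set.EqOn f (fun _ => (0 : ℝ)) {y : ℝ | (R : ℝ) < |y|} := fun y hy => hR y hy
    have := heq.iteratedDeriv_of_isOpen hopen k hx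
    simpa using this
  have hxb : ∀ (k : ℕ) (x : ℝ), |x * iteratedDeriv k f x| ≤ (R : ℝ) * bf k := by
    intro k x
    by_cases hx : (R : ℝ) < |x|
    · rw [hvan k x hx]; simp; positivity
    · rw [abs_mul]
      exact mul_le_mul (not_lt.mp hx) (hbf k x) (abs_nonneg _) (Nat.cast_nonneg R)
  have hN1 : Computable (fun x : ℕ × ℚ × ℕ => u x.2.1 * ((2 * x.2.2 + 1) + 1)) :=
    (Primrec.nat_mul.to_comp).comp (cu.comp comp_q3)
      (Computable.succ.comp ((Primrec.nat_double_succ.to_comp).comp comp_n3))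
  have hN2 : Computable (fun x : ℕ × ℚ × ℕ => x.1 * ((2 * x.2.2 + 1) + 1)) :=
    (Primrec.nat_mul.to_comp).comp comp_k3
      (Computable.succ.comp ((Primrec.nat_double_succ.to_comp).comp comp_n3))
  refine ⟨contDiff_id.mul sf,
    fun x => x.2.1 * Ef (x.1, x.2.1, u x.2.1 * ((2 * x.2.2 + 1) + 1))
      + (x.1 : ℚ) * Ef (x.1 - 1, x.2.1, x.1 * ((2 * x.2.2 + 1) + 1)),
    fun k => R * bf k + k * bf (k - 1), ?_, ?_, ?_, ?_⟩
  · exact hQ.add.comp
      (hQ.mul.comp comp_q3 (cEf.comp (comp_k3.pair (comp_q3.pair hN1))))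
      (hQ.mul.comp (hQ.natCast.comp comp_k3)
        (cEf.comp ((Computable.pred.comp comp_k3).pair (comp_q3.pair hN2))))
  · exact (Primrec.nat_add.to_comp).comp
      ((Primrec.nat_mul.to_comp).comp (Computable.const R) cbf)
      ((Primrec.nat_mul.to_comp).comp Computable.id (cbf.comp Computable.pred))
  · intro k q n
    rw [hder]
    have h1 := hEf k q (u q * ((2 * n + 1) + 1))
    have h2 := hEf (k - 1) q (k * ((2 * n + 1) + 1))
    have hq : |(q : ℝ)| ≤ ((u q : ℕ) : ℝ) := by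
      have := hu q
      exact_mod_cast this
    have hk : |(k : ℝ)| ≤ ((k : ℕ) : ℝ) := by simp
    have b1 : |(q : ℝ)| * |iteratedDeriv k f q - (Ef (k, q, u q * ((2 * n + 1) + 1)) : ℝ)|
        ≤ 1 / ((n : ℝ) + 1) / 2 := by
      rw [← half_prec]
      exact (mul_le_mul_of_nonneg_left h1 (abs_nonneg _)).trans (prec_bound hq le_rfl)
    have b2 : |(k : ℝ)| * |iteratedDeriv (k - 1) f q - (Ef (k - 1, q, k * ((2 * n + 1) + 1)) : ℝ)|
        ≤ 1 / ((n : ℝ) + 1) / 2 := by
      rw [← half_prec]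
      exact (mul_le_mul_of_nonneg_left h2 (abs_nonneg _)).trans (prec_bound hk le_rfl)
    have e2 : (q : ℝ) * iteratedDeriv k f q + (k : ℝ) * iteratedDeriv (k - 1) f q
          - ((q * Ef (k, q, u q * ((2 * n + 1) + 1))
              + (k : ℚ) * Ef (k - 1, q, k * ((2 * n + 1) + 1)) : ℚ) : ℝ)
        = (q : ℝ) * (iteratedDeriv k f q - (Ef (k, q, u q * ((2 * n + 1) + 1)) : ℝ))
          + (k : ℝ) * (iteratedDeriv (k - 1) f q - (Ef (k - 1, q, k * ((2 * n + 1) + 1)) : ℝ)) := by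
      push_cast; ring
    rw [e2]
    refine (abs_add_le _ _).trans ?_
    rw [abs_mul, abs_mul]
    linarith
  · intro k x
    rw [hder]
    refine (abs_add_le _ _).trans ?_
    push_cast
    refine add_le_add (hxb k x) ?_
    rw [abs_mul]
    exact mul_le_mul (by simp) (hbf (k - 1) x) (abs_nonneg _) (Nat.cast_nonneg k)

end closure

end Crest.Agent.Helper13
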