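/-
helper13: S0170 team build, effectiveness of tensor fields and closure of smooth effective
fields under zero, sums.
-/
import Mathlib
import Crest.Prelude.Def_BoxFlow
import Crest.Agent.Helper13.BoxEffB

set_option autoImplicit false
open scoped ContDiff

namespace Crest.Agent.Helper13

open Crest.AnalysisR.BoxFlow

/-- the argument type of the approximating function of `Effective`. -/
abbrev EDom : Type := List (Fin 4) × (ℚ × (Fin 3 → ℚ)) × ℕ

theorem tensor_comp (g A B C : ℝ → ℝ) (j i : Fin 3) (p : ℝ × (Fin 3 → ℝ)) :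
    tensor g A B C j p i = if i = j then g p.1 * A (p.2 0) * B (p.2 1) * C (p.2 2) else 0 := by
  simp [tensor, Pi.single_apply]

theorem EffS.zero : EffS (fun _ => (0 : Fin 3 → ℝ)) := by
  refine ⟨contDiff_const, fun _ => 0, fun _ => 0, Computable.const _, Computable.const _, ?_, ?_⟩
  · intro ds t q n j
    rw [mixedDeriv_zero]
    simp
    positivity
  · intro ds p j
    rw [mixedDeriv_zero]; simp

theorem EffS.add (hQ : QComp) {U V : Field} (hU : EffS U) (hV : EffS V) :
    EffS (fun p => U p + V p) := by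
  obtain ⟨sU, EU, bU, cEU, cbU, hEU, hbU⟩ := hU
  obtain ⟨sV, EV, bV, cEV, cbV, hEV, hbV⟩ := hV
  have hds : Computable (fun x : EDom => x.1) := Computable.fst
  have hpt : Computable (fun x : EDom => x.2.1) := Computable.fst.comp Computable.snd
  have hn : Computable (fun x : EDom => x.2.2) := Computable.snd.comp Computable.snd
  have h2n : Computable (fun x : EDom => 2 * x.2.2 + 1) :=
    (Primrec.nat_double_succ.to_comp).comp hn
  have harg : Computable (fun x : EDom => (x.1, x.2.1, 2 * x.2.2 + 1)) :=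
    hds.pair (hpt.pair h2n)
  refine ⟨sU.add sV, ⟨fun x i => EU (x.1, x.2.1, 2 * x.2.2 + 1) i
      + EV (x.1, x.2.1, 2 * x.2.2 + 1) i, fun ds => bU ds + bV ds, ?_, ?_, ?_, ?_⟩⟩
  · apply computable_fin_lam
    intro i
    exact hQ.add.comp (Computable.fin_app.comp (cEU.comp harg) (Computable.const i))
      (Computable.fin_app.comp (cEV.comp harg) (Computable.const i))
  · exact (Primrec.nat_add.to_comp).comp cbU cbV
  · intro ds t q n j
    rw [mixedDeriv_add sU sV]
    have h1 := hEU ds t q (2 * n + 1) j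
    have h2 := hEV ds t q (2 * n + 1) j
    rw [half_prec] at h1 h2
    have e2 : mixedDeriv ds U ((t : ℝ), ratPoint q) j + mixedDeriv ds V ((t : ℝ), ratPoint q) j
          - ((EU (ds, (t, q), 2 * n + 1) j + EV (ds, (t, q), 2 * n + 1) j : ℚ) : ℝ)
        = (mixedDeriv ds U ((t : ℝ), ratPoint q) j - (EU (ds, (t, q), 2 * n + 1) j : ℝ))
          + (mixedDeriv ds V ((t : ℝ), ratPoint q) j - (EV (ds, (t, q), 2 * n + 1) j : ℝ)) := by
      push_cast; ring
    show |mixedDeriv ds U ((t : ℝ), ratPoint q) j + mixedDeriv ds V ((t : ℝ), ratPoint q) j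
          - ((EU (ds, (t, q), 2 * n + 1) j + EV (ds, (t, q), 2 * n + 1) j : ℚ) : ℝ)| ≤ _
    rw [e2]
    exact (abs_add_le _ _).trans (by linarith)
  · intro ds p j
    rw [mixedDeriv_add sU sV]
    push_cast
    exact (abs_add_le _ _).trans (add_le_add (hbU ds p j) (hbV ds p j))

theorem EffS.sum (hQ : QComp) {ι : Type*} (s : Finset ι) (U : ι → Field)
    (h : ∀ i ∈ s, EffS (U i)) : EffS (fun p => ∑ i ∈ s, U i p) := by
  classical
  induction s using Finset.induction_on with
  | empty => simpa using EffS.zero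
  | insert a s ha ih =>
    have e : (fun p => ∑ i ∈ insert a s, U i p)
        = fun p => U a p + (fun p => ∑ i ∈ s, U i p) p := by
      funext p; rw [Finset.sum_insert ha]
    rw [e]
    exact EffS.add hQ (h a (Finset.mem_insert_self a s))
      (ih (fun i hi => h i (Finset.mem_insert_of_mem hi)))

theorem prod4_err {x0 x1 x2 x3 y0 y1 y2 y3 β0 β1 β2 β3 δ : ℝ}
    (h0 : |x0 - y0| ≤ δ) (h1 : |x1 - y1| ≤ δ) (h2 : |x2 - y2| ≤ δ) (h3 : |x3 - y3| ≤ δ)
    (b0 : |x0| ≤ β0) (b1 : |x1| ≤ β1) (b2 : |x2| ≤ β2) (b3 : |x3| ≤ β3) (hδ : δ ≤ 1) :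
    |x0 * x1 * x2 * x3 - y0 * y1 * y2 * y3|
      ≤ 4 * δ * ((β0 + 1) * (β1 + 1) * (β2 + 1) * (β3 + 1)) := by
  have hδ0 : 0 ≤ δ := (abs_nonneg _).trans h0
  have n0 : 0 ≤ β0 := (abs_nonneg _).trans b0
  have n1 : 0 ≤ β1 := (abs_nonneg _).trans b1
  have n2 : 0 ≤ β2 := (abs_nonneg _).trans b2
  have n3 : 0 ≤ β3 := (abs_nonneg _).trans b3
  have c0 : |y0| ≤ β0 + 1 := by
    have := abs_sub_abs_le_abs_sub y0 x0
    rw [abs_sub_comm] at this; linarith
  have c1 : |y1| ≤ β1 + 1 := by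
    have := abs_sub_abs_le_abs_sub y1 x1
    rw [abs_sub_comm] at this; linarith
  have c2 : |y2| ≤ β2 + 1 := by
    have := abs_sub_abs_le_abs_sub y2 x2
    rw [abs_sub_comm] at this; linarith
  have e : x0 * x1 * x2 * x3 - y0 * y1 * y2 * y3
      = (x0 - y0) * x1 * x2 * x3 + y0 * (x1 - y1) * x2 * x3 + y0 * y1 * (x2 - y2) * x3
        + y0 * y1 * y2 * (x3 - y3) := by ring
  have t0 : |(x0 - y0) * x1 * x2 * x3| ≤ δ * (β1 + 1) * (β2 + 1) * (β3 + 1) := by
    rw [abs_mul, abs_mul, abs_mul]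
    have := mul_le_mul (mul_le_mul (mul_le_mul h0 (b1.trans (by linarith : β1 ≤ β1 + 1))
      (abs_nonneg _) hδ0) (b2.trans (by linarith : β2 ≤ β2 + 1)) (abs_nonneg _) (by positivity))
      (b3.trans (by linarith : β3 ≤ β3 + 1)) (abs_nonneg _) (by positivity)
    exact this
  have t1 : |y0 * (x1 - y1) * x2 * x3| ≤ (β0 + 1) * δ * (β2 + 1) * (β3 + 1) := by
    rw [abs_mul, abs_mul, abs_mul]
    have := mul_le_mul (mul_le_mul (mul_le_mul c0 h1
      (abs_nonneg _) (by positivity)) (b2.trans (by linarith : β2 ≤ β2 + 1)) (abs_nonneg _)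
      (by positivity)) (b3.trans (by linarith : β3 ≤ β3 + 1)) (abs_nonneg _) (by positivity)
    exact this
  have t2 : |y0 * y1 * (x2 - y2) * x3| ≤ (β0 + 1) * (β1 + 1) * δ * (β3 + 1) := by
    rw [abs_mul, abs_mul, abs_mul]
    have := mul_le_mul (mul_le_mul (mul_le_mul c0 c1
      (abs_nonneg _) (by positivity)) h2 (abs_nonneg _)
      (by positivity)) (b3.trans (by linarith : β3 ≤ β3 + 1)) (abs_nonneg _) (by positivity)
    exact this
  have t3 : |y0 * y1 * y2 * (x3 - y3)| ≤ (β0 + 1) * (β1 + 1) * (β2 + 1) * δ := by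
    rw [abs_mul, abs_mul, abs_mul]
    have := mul_le_mul (mul_le_mul (mul_le_mul c0 c1
      (abs_nonneg _) (by positivity)) c2 (abs_nonneg _)
      (by positivity)) h3 (abs_nonneg _) (by positivity)
    exact this
  have s0 : δ * (β1 + 1) * (β2 + 1) * (β3 + 1)
      ≤ δ * ((β0 + 1) * (β1 + 1) * (β2 + 1) * (β3 + 1)) := by
    have hp : 0 ≤ δ * ((β1 + 1) * (β2 + 1) * (β3 + 1)) := by positivity
    nlinarith
  rw [e]
  have a1 := abs_add_le ((x0 - y0) * x1 * x2 * x3 + y0 * (x1 - y1) * x2 * x3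
    + y0 * y1 * (x2 - y2) * x3) (y0 * y1 * y2 * (x3 - y3))
  have a2 := abs_add_le ((x0 - y0) * x1 * x2 * x3 + y0 * (x1 - y1) * x2 * x3)
    (y0 * y1 * (x2 - y2) * x3)
  have a3 := abs_add_le ((x0 - y0) * x1 * x2 * x3) (y0 * (x1 - y1) * x2 * x3)
  have r1 : (β0 + 1) * δ * (β2 + 1) * (β3 + 1)
      ≤ δ * ((β0 + 1) * (β1 + 1) * (β2 + 1) * (β3 + 1)) := by
    have hp : 0 ≤ δ * ((β0 + 1) * (β2 + 1) * (β3 + 1)) := by positivity
    nlinarith
  have r2 : (β0 + 1) * (β1 + 1) * δ * (β3 + 1)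
      ≤ δ * ((β0 + 1) * (β1 + 1) * (β2 + 1) * (β3 + 1)) := by
    have hp : 0 ≤ δ * ((β0 + 1) * (β1 + 1) * (β3 + 1)) := by positivity
    nlinarith
  have r3 : (β0 + 1) * (β1 + 1) * (β2 + 1) * δ
      ≤ δ * ((β0 + 1) * (β1 + 1) * (β2 + 1) * (β3 + 1)) := by
    have hp : 0 ≤ δ * ((β0 + 1) * (β1 + 1) * (β2 + 1)) := by positivity
    nlinarith
  linarith

/-- **Tensor lemma**: a tensor field with one-dimensionally effective factors is smooth and
effective. -/
theorem EffS.tensor (hQ : QComp) {g A B C : ℝ → ℝ} (hg : Eff1 g) (hA : Eff1 A) (hB : Eff1 B)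
    (hC : Eff1 C) (j : Fin 3) : EffS (tensor g A B C j) := by
  obtain ⟨sg, Eg, bg, cEg, cbg, hEg, hbg⟩ := hg
  obtain ⟨sA, EA, bA, cEA, cbA, hEA, hbA⟩ := hA
  obtain ⟨sB, EB, bB, cEB, cbB, hEB, hbB⟩ := hB
  obtain ⟨sC, EC, bC, cEC, cbC, hEC, hbC⟩ := hC
  refine ⟨tensor_contDiff sg sA sB sC j, ?_⟩
  -- the precision requested from the factors
  obtain ⟨N, hNdef⟩ : ∃ N : EDom → ℕ, N = fun x => 4 * (x.2.2 + 1) *
      ((bg (x.1.count 0) + 1) * (bA (x.1.count 1) + 1) * (bB (x.1.count 2) + 1)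
        * (bC (x.1.count 3) + 1)) := ⟨_, rfl⟩
  obtain ⟨P, hPdef⟩ : ∃ P : EDom → ℚ, P = fun x =>
      Eg (x.1.count 0, x.2.1.1, N x) * EA (x.1.count 1, x.2.1.2 0, N x)
        * EB (x.1.count 2, x.2.1.2 1, N x) * EC (x.1.count 3, x.2.1.2 2, N x) := ⟨_, rfl⟩
  have hds : Computable (fun x : EDom => x.1) := Computable.fst
  have hc : ∀ i : Fin 4, Computable (fun x : EDom => x.1.count i) := fun i =>
    ((primrec_count i).to_comp).comp hds
  have ht : Computable (fun x : EDom => x.2.1.1) :=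
    Computable.fst.comp (Computable.fst.comp Computable.snd)
  have hqv : Computable (fun x : EDom => x.2.1.2) :=
    Computable.snd.comp (Computable.fst.comp Computable.snd)
  have hqi : ∀ i : Fin 3, Computable (fun x : EDom => x.2.1.2 i) := fun i =>
    Computable.fin_app.comp hqv (Computable.const i)
  have hn : Computable (fun x : EDom => x.2.2) := Computable.snd.comp Computable.snd
  have hb : ∀ (b : ℕ → ℕ), Computable b → ∀ i : Fin 4,
      Computable (fun x : EDom => b (x.1.count i) + 1) := fun b cb i =>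
    Computable.succ.comp (cb.comp (hc i))
  have mulc : ∀ {f₁ f₂ : EDom → ℕ}, Computable f₁ → Computable f₂ →
      Computable (fun x => f₁ x * f₂ x) := fun h₁ h₂ => (Primrec.nat_mul.to_comp).comp h₁ h₂
  have hN : Computable N := by
    rw [hNdef]
    exact mulc (mulc (Computable.const 4) (Computable.succ.comp hn))
      (mulc (mulc (mulc (hb bg cbg 0) (hb bA cbA 1)) (hb bB cbB 2)) (hb bC cbC 3))
  have hP : Computable P := by
    rw [hPdef]
    exact hQ.mul.comp (hQ.mul.comp (hQ.mul.comp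
      (cEg.comp ((hc 0).pair (ht.pair hN)))
      (cEA.comp ((hc 1).pair ((hqi 0).pair hN))))
      (cEB.comp ((hc 2).pair ((hqi 1).pair hN))))
      (cEC.comp ((hc 3).pair ((hqi 2).pair hN)))
  refine ⟨fun x i => if i = j then P x else 0,
    fun ds => bg (ds.count 0) * bA (ds.count 1) * bB (ds.count 2) * bC (ds.count 3),
    ?_, ?_, ?_, ?_⟩
  · apply computable_fin_lam
    intro i
    by_cases hi : i = j
    · simp only [hi, if_true]; exact hP
    · simp only [hi, if_false]; exact Computable.const 0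
  · have hcc : ∀ (b : ℕ → ℕ), Computable b → ∀ i : Fin 4,
        Computable (fun ds : List (Fin 4) => b (ds.count i)) := fun b cb i =>
      cb.comp ((primrec_count i).to_comp)
    exact (Primrec.nat_mul.to_comp).comp ((Primrec.nat_mul.to_comp).comp
      ((Primrec.nat_mul.to_comp).comp (hcc bg cbg 0) (hcc bA cbA 1)) (hcc bB cbB 2))
      (hcc bC cbC 3)
  · intro ds t q n i
    rw [mixedDeriv_tensor sg sA sB sC j ds, tensor_comp]
    by_cases hi : i = j
    · simp only [hi, if_true]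
      have hNval : N (ds, (t, q), n) = 4 * (n + 1) *
          ((bg (ds.count 0) + 1) * (bA (ds.count 1) + 1) * (bB (ds.count 2) + 1)
            * (bC (ds.count 3) + 1)) := by rw [hNdef]
      obtain ⟨N0, hN0⟩ : ∃ N0 : ℕ, N0 = N (ds, (t, q), n) := ⟨_, rfl⟩
      have hPval : P (ds, (t, q), n) = Eg (ds.count 0, t, N0) * EA (ds.count 1, q 0, N0)
          * EB (ds.count 2, q 1, N0) * EC (ds.count 3, q 2, N0) := by rw [hPdef, hN0]
      rw [hPval]
      have k0 := hEg (ds.count 0) t N0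
      have k1 := hEA (ds.count 1) (q 0) N0
      have k2 := hEB (ds.count 2) (q 1) N0
      have k3 := hEC (ds.count 3) (q 2) N0
      have hδ1 : (1 : ℝ) / ((N0 : ℝ) + 1) ≤ 1 := by
        rw [div_le_one (by positivity)]
        have : (0 : ℝ) ≤ N0 := Nat.cast_nonneg _
        linarith
      have main := prod4_err k0 k1 k2 k3 (hbg (ds.count 0) t) (hbA (ds.count 1) (q 0))
        (hbB (ds.count 2) (q 1)) (hbC (ds.count 3) (q 2)) hδ1
      have hfin : 4 * ((1 : ℝ) / ((N0 : ℝ) + 1)) * (((bg (ds.count 0) : ℝ) + 1)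
          * ((bA (ds.count 1) : ℝ) + 1) * ((bB (ds.count 2) : ℝ) + 1) * ((bC (ds.count 3) : ℝ) + 1))
          ≤ 1 / ((n : ℝ) + 1) := by
        have hNr : (N0 : ℝ) = 4 * ((n : ℝ) + 1) * (((bg (ds.count 0) : ℝ) + 1)
            * ((bA (ds.count 1) : ℝ) + 1) * ((bB (ds.count 2) : ℝ) + 1)
            * ((bC (ds.count 3) : ℝ) + 1)) := by
          rw [hN0, hNval]; push_cast; ring
        obtain ⟨Q, hQdef⟩ : ∃ Q : ℝ, Q = ((bg (ds.count 0) : ℝ) + 1)
            * ((bA (ds.count 1) : ℝ) + 1) * ((bB (ds.count 2) : ℝ) + 1)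
            * ((bC (ds.count 3) : ℝ) + 1) := ⟨_, rfl⟩
        rw [← hQdef] at hNr ⊢
        have hQpos : 0 < Q := by rw [hQdef]; positivity
        have hn1 : (0 : ℝ) < (n : ℝ) + 1 := by positivity
        rw [hNr]
        rw [mul_one_div, div_mul_eq_mul_div, div_le_div_iff₀ (by positivity) hn1]
        nlinarith [mul_pos hQpos hn1]
      have e3 : iteratedDeriv (ds.count 0) g (t : ℝ) * iteratedDeriv (ds.count 1) A (ratPoint q 0)
            * iteratedDeriv (ds.count 2) B (ratPoint q 1)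
            * iteratedDeriv (ds.count 3) C (ratPoint q 2)
            - ((Eg (ds.count 0, t, N0) * EA (ds.count 1, q 0, N0) * EB (ds.count 2, q 1, N0)
              * EC (ds.count 3, q 2, N0) : ℚ) : ℝ)
          = iteratedDeriv (ds.count 0) g (t : ℝ) * iteratedDeriv (ds.count 1) A ((q 0 : ℚ) : ℝ)
            * iteratedDeriv (ds.count 2) B ((q 1 : ℚ) : ℝ)
            * iteratedDeriv (ds.count 3) C ((q 2 : ℚ) : ℝ)
            - (Eg (ds.count 0, t, N0) : ℝ) * (EA (ds.count 1, q 0, N0) : ℝ)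
              * (EB (ds.count 2, q 1, N0) : ℝ) * (EC (ds.count 3, q 2, N0) : ℝ) := by
        push_cast; rfl
      rw [e3]
      exact main.trans hfin
    · simp only [hi, if_false]
      simp
      positivity
  · intro ds p i
    rw [mixedDeriv_tensor sg sA sB sC j ds, tensor_comp]
    by_cases hi : i = j
    · simp only [hi, if_true]
      rw [abs_mul, abs_mul, abs_mul]
      push_cast
      exact mul_le_mul (mul_le_mul (mul_le_mul (hbg _ _) (hbA _ _) (abs_nonneg _)
        (Nat.cast_nonneg _)) (hbB _ _) (abs_nonneg _) (by positivity)) (hbC _ _) (abs_nonneg _)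
        (by positivity)
    · simp only [hi, if_false]
      simp
      positivity

end Crest.Agent.Helper13
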