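/-
helper13: S0170 team build, umbrella module for the effectiveness toolkit:
`Eff1` closure lemmas (`Eff1.add`, `Eff1.sub`, `Eff1.neg`, `Eff1.const_mul`, `Eff1.deriv`,
`Eff1.comp_affine`, `Eff1.id_mul`), tensor fields (`tensor_contDiff`, `mixedDeriv_tensor`,
`spaceDiv_tensor_zero/one/two`, `hasCompactSupport_tensor`, `tensor_time_zero`), and smooth
effective fields (`EffS.zero`, `EffS.add`, `EffS.sum`, `EffS.tensor`).
-/
import Crest.Agent.Helper13.BoxEffC
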